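import Mathlib
import Vale.Agent.Lib.P194.H11.GroupRing

/-!
# P194 (direct finiteness of group algebras): extensions with cyclic kernel

Let `K` be a ring (for instance a field of any characteristic), and let `f : G → Q` be a group
homomorphism whose kernel is the cyclic subgroup generated by an element `z` that has infinite
order (`orderOf z = 0`), or has order `p ^ m` for a prime `p` such that `K` has characteristic
`p`. If the group algebra `K[Q]` is directly finite (`a * b = 1` implies `b * a = 1`), then so is
`K[G]`; and for every `n`, if the matrix ring `M_n(K[Q])` is directly finite, then so is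
`M_n(K[G])`. In particular direct and stable finiteness pass from `K[G ⧸ N]` to `K[G]` for every
normal cyclic subgroup `N` of `G` of this kind.

Proof: if `a * b = 1` then `e = 1 - b * a` is an idempotent in the kernel of `K[G] → K[Q]`. This
kernel is `(z - 1) * K[G]`, and `K[G] * (z - 1) ⊆ (z - 1) * K[G]`, so `e = e ^ k` is a right
multiple of `(z - 1) ^ k` for every `k`. In characteristic `p` with `z` of order `p ^ m` one has
`(z - 1) ^ (p ^ m) = 0`; if `z` has infinite order, multiplication by `z - 1` strictly widens the
support of a nonzero element along each orbit of `z`, so only `0` is a right multiple of all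
powers of `z - 1`. Hence `e = 0`.
-/

namespace Vale.Agent.Results.P194.H11_CyclicKernel

open Vale.Agent.Lib.P194.H11

theorem result (K : Type*) [Ring K] (G Q : Type*) [Group G] [Group Q] (f : G →* Q) (z : G)
    (hker : f.ker = Subgroup.zpowers z)
    (hord : orderOf z = 0 ∨ ∃ p m : ℕ, p.Prime ∧ CharP K p ∧ orderOf z = p ^ m) :
    ((∀ a b : MonoidAlgebra K Q, a * b = 1 → b * a = 1) →
      ∀ a b : MonoidAlgebra K G, a * b = 1 → b * a = 1) ∧
    (∀ n : ℕ, (∀ A B : Matrix (Fin n) (Fin n) (MonoidAlgebra K Q), A * B = 1 → B * A = 1) →
      ∀ A B : Matrix (Fin n) (Fin n) (MonoidAlgebra K G), A * B = 1 → B * A = 1) :=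
  df_of_cyclic_kernel f z hker hord

end Vale.Agent.Results.P194.H11_CyclicKernel
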