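import Mathlib
import Vale.Agent.Lib.P194.H11.Magnus

/-!
# P194 (direct finiteness of group algebras): extensions with (fully residually) free kernel

Let `K` be a field and `f : G → Q` a group homomorphism whose kernel `N` is fully residually
free: for every finite subset `S` of `N` there is a homomorphism from `N` to a free group that is
injective on `S`. (Every free group is fully residually free, via an isomorphism with a group
`FreeGroup X`; so are finitely generated free abelian groups.) Then: if `K[Q]` is directly finite
(`a * b = 1` implies `b * a = 1`), so is `K[G]`; and for every `n`, if the matrix ring
`M_n(K[Q])` is directly finite, so is `M_n(K[G])`.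

Proof: by `H11_ResNilpKernel` it suffices that the powers of the augmentation ideal `ω` of `K[N]`
have zero intersection. For a free group this is the Magnus–Fox theorem, proved in
`Vale.Agent.Lib.P194.H11.Magnus` for every field by means of Fox derivatives: the Fox derivative
maps `ω ^ (k + 1)` into `ω ^ k` and is a signed sum of prefixes on group elements, so a nonzero
element of the intersection with a longest word `q * t` in its support is mapped, by the operator
of the letter `t`, to a nonzero element of the intersection with fewer longest words. The fully
residually free case follows by mapping a given element to a free group injectively on its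
support.
-/

namespace Vale.Agent.Results.P194.H11_FreeKernel

open Vale.Agent.Lib.P194.H11

theorem result.{u, v, w} (K : Type u) [Field K] (G : Type v) (Q : Type w) [Group G] [Group Q]
    (f : G →* Q)
    (hker : ∀ S : Finset f.ker, ∃ (X : Type v) (φ : f.ker →* FreeGroup X),
      Set.InjOn φ (S : Set f.ker)) :
    ((∀ a b : MonoidAlgebra K Q, a * b = 1 → b * a = 1) →
      ∀ a b : MonoidAlgebra K G, a * b = 1 → b * a = 1) ∧
    (∀ n : ℕ, (∀ A B : Matrix (Fin n) (Fin n) (MonoidAlgebra K Q), A * B = 1 → B * A = 1) →
      ∀ A B : Matrix (Fin n) (Fin n) (MonoidAlgebra K G), A * B = 1 → B * A = 1) :=
  df_of_fully_residually_free_kernel f hker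

end Vale.Agent.Results.P194.H11_FreeKernel
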