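import Mathlib
import Vale.Agent.Lib.P194.H11.General

/-!
# P194 (direct finiteness of group algebras): kernels with residually nilpotent augmentation ideal

Let `K` be a field and `f : G → Q` a group homomorphism with kernel `N`. Let `ω` be the
augmentation ideal of `K[N]`, written here as the `K`-span of the elements `n - 1`, `n ∈ N`, and
let `ω ^ k` be its `k`-th power (the `K`-span of all products of `k` elements of `ω`; powers of
`K`-submodules of the `K`-algebra `K[N]`). Assume that `ω` is residually nilpotent: the
intersection of the `ω ^ k`, `k ≥ 1`, is `0`. (The index is `k + 1` below because the zeroth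
power of a `K`-submodule is the span of `1`, not the whole ring.)

Then: if `K[Q]` is directly finite (`a * b = 1` implies `b * a = 1`), so is `K[G]`; and for every
`n`, if the matrix ring `M_n(K[Q])` is directly finite, so is `M_n(K[G])`.

Proof: if `a * b = 1`, then `e = 1 - b * a` is an idempotent in the kernel `J` of `K[G] → K[Q]`,
and `J = ω * K[G]`. As `N` is normal, `K[G] * ω ⊆ ω * K[G]`, so `e = e ^ k` lies in
`J ^ k ⊆ ω ^ k * K[G]` for all `k ≥ 1`. Reading off coefficients along the cosets `N * g`
(a left `K[N]`-linear map `K[G] → K[N]`) sends `ω ^ k * K[G]` into `ω ^ k`, so all these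
coefficient vectors of `e` lie in every `ω ^ k`, hence vanish, and `e = 0`.
-/

namespace Vale.Agent.Results.P194.H11_ResNilpKernel

open Vale.Agent.Lib.P194.H11

theorem result (K : Type*) [Field K] (G Q : Type*) [Group G] [Group Q] (f : G →* Q)
    (hN : ⨅ k : ℕ, (Submodule.span K (Set.range fun n : f.ker =>
        (MonoidAlgebra.single n (1 : K) - 1 : MonoidAlgebra K f.ker))) ^ (k + 1) = ⊥) :
    ((∀ a b : MonoidAlgebra K Q, a * b = 1 → b * a = 1) →
      ∀ a b : MonoidAlgebra K G, a * b = 1 → b * a = 1) ∧
    (∀ n : ℕ, (∀ A B : Matrix (Fin n) (Fin n) (MonoidAlgebra K Q), A * B = 1 → B * A = 1) →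
      ∀ A B : Matrix (Fin n) (Fin n) (MonoidAlgebra K G), A * B = 1 → B * A = 1) :=
  df_of_resnilp_kernel f hN

end Vale.Agent.Results.P194.H11_ResNilpKernel
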