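import Mathlib
import Vale.Agent.Lib.P194.H7.Restrict

/-!
# P194 (direct finiteness of group algebras): elements supported in a coset of an abelian subgroup

For every commutative ring `K`, every group `G` and all `a b` in the group algebra `K[G]`: if the
quotients `g⁻¹ * h` of elements `g, h` of the support of `a` pairwise commute (equivalently, the
support of `a` lies in a left coset of a commutative subgroup; this holds whenever the support of
`a` has at most two elements), then `a * b = 1` implies `b * a = 1`.
-/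

namespace Vale.Agent.Results.P194.H7_AbelianSupport

open Vale.Agent.Lib.P194.H7

theorem result (K G : Type*) [CommRing K] [Group G] (a b : MonoidAlgebra K G)
    (hc : ∀ g₁ ∈ a.coeff.support, ∀ g₂ ∈ a.coeff.support, ∀ g₃ ∈ a.coeff.support,
      ∀ g₄ ∈ a.coeff.support, (g₁⁻¹ * g₂) * (g₃⁻¹ * g₄) = (g₃⁻¹ * g₄) * (g₁⁻¹ * g₂))
    (hab : a * b = 1) : b * a = 1 := by
  rcases a.coeff.support.eq_empty_or_nonempty with hempty | ⟨g₀, hg₀⟩
  · have ha0 : a = 0 := by
      apply MonoidAlgebra.ext
      exact Finsupp.support_eq_empty.mp hempty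
    rw [ha0, zero_mul] at hab
    rw [ha0, mul_zero]
    exact hab
  · have h1 : MonoidAlgebra.single g₀⁻¹ (1 : K) * MonoidAlgebra.single g₀ (1 : K) = 1 := by
      rw [MonoidAlgebra.single_mul_single, inv_mul_cancel, mul_one, MonoidAlgebra.one_def]
    have h2 : MonoidAlgebra.single g₀ (1 : K) * MonoidAlgebra.single g₀⁻¹ (1 : K) = 1 := by
      rw [MonoidAlgebra.single_mul_single, mul_inv_cancel, mul_one, MonoidAlgebra.one_def]
    have hab' : (MonoidAlgebra.single g₀⁻¹ (1 : K) * a) * (b * MonoidAlgebra.single g₀ (1 : K))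
        = 1 := by
      calc (MonoidAlgebra.single g₀⁻¹ (1 : K) * a) * (b * MonoidAlgebra.single g₀ (1 : K))
          = MonoidAlgebra.single g₀⁻¹ (1 : K) * (a * b) * MonoidAlgebra.single g₀ (1 : K) := by
            simp only [mul_assoc]
        _ = 1 := by rw [hab, mul_one, h1]
    have hba' := mul_eq_one_comm_of_subgroup (quotSubgroup g₀ a)
      (quotSubgroup_comm g₀ a hg₀ hc) _ _ (shift_support g₀ a) hab'
    calc b * a = b * (MonoidAlgebra.single g₀ (1 : K) * MonoidAlgebra.single g₀⁻¹ (1 : K)) * a := by
          rw [h2, mul_one]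
      _ = (b * MonoidAlgebra.single g₀ (1 : K)) * (MonoidAlgebra.single g₀⁻¹ (1 : K) * a) := by
          simp only [mul_assoc]
      _ = 1 := hba'

end Vale.Agent.Results.P194.H7_AbelianSupport
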